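import Claimed.Agent.R152.B.Simple.Elts

/-!
# Row 152, module B, sec. 6.3: BRICKS form a neighbourhood basis

Black boxes: `Model/Cube.lean`, `Model/Tile.lean`, `Simple/Elts.lean`.   Statements FROZEN; auxiliary lemmas welcome.
-/

namespace Claimed.Agent.R152.B

universe u
variable {S : Type u}

/-- Bricks: compositions of pushes. -/
inductive IsBrick : Chart S → Prop
  | id : IsBrick (Chart.id S)
  | cut {e : Chart S} (s : S) (b : Bool) : IsBrick e → IsBrick (e.cut s b)

/-- Refining a brick around a point: if `q ∈ range e` then for every `s` there is `b` with `q ∈ range (e.cut s b)`. -/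
theorem exists_cut_mem {e : Chart S} {q : Cube S} (hq : q ∈ e.rg) (s : S) :
    ∃ b, q ∈ (e.cut s b).rg := by
  obtain ⟨p, rfl⟩ := hq
  refine ⟨p s 0, pop s p, ?_⟩
  rw [Chart.cut_apply, push_pop]

/-- The invariant of a brick around `q` with depth function `d`. -/
def BrickInv (q : Cube S) (e : Chart S) (d : S → ℕ) : Prop :=
  ∀ (p : Cube S) (s : S) (n : ℕ), e p s n = if n < d s then q s n else p s (n - d s)

open Classical in
theorem BrickInv.cut {q : Cube S} {e : Chart S} {d : S → ℕ} (h : BrickInv q e d) (s : S) :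
    BrickInv q (e.cut s (q s (d s))) (Function.update d s (d s + 1)) := by
  intro p t n
  rw [Chart.cut_apply, h]
  by_cases hts : t = s
  · subst hts
    rw [Function.update_self]
    rcases lt_trichotomy n (d t) with hn | hn | hn
    · rw [if_pos hn, if_pos (by omega)]
    · subst hn
      rw [if_neg (lt_irrefl _), if_pos (by omega), Nat.sub_self, push_same_zero]
    · rw [if_neg (by omega), if_neg (by omega)]
      obtain ⟨m, rfl⟩ : ∃ m, n = d t + 1 + m := ⟨n - (d t + 1), by omega⟩
      have h1 : d t + 1 + m - d t = m + 1 := by omega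
      have h2 : d t + 1 + m - (d t + 1) = m := by omega
      rw [h1, h2, push_same_succ]
  · rw [Function.update_of_ne hts, push_ne hts]

open Classical in
theorem BrickInv.exists_deepen {q : Cube S} {e : Chart S} {d : S → ℕ} (he : IsBrick e)
    (h : BrickInv q e d) (s : S) (m : ℕ) :
    ∃ e' : Chart S, IsBrick e' ∧ BrickInv q e' (Function.update d s (d s + m)) := by
  induction m with
  | zero => exact ⟨e, he, by simpa using h⟩
  | succ m ih =>
    obtain ⟨e', he', h'⟩ := ih
    have := h'.cut s
    rw [Function.update_self, Function.update_idem, add_assoc] at this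
    exact ⟨_, IsBrick.cut s _ he', this⟩

theorem BrickInv.mem_rg {q : Cube S} {e : Chart S} {d : S → ℕ} (h : BrickInv q e d) :
    q ∈ e.rg := by
  refine ⟨fun s n => q s (n + d s), ?_⟩
  funext s n
  rw [h]
  by_cases hn : n < d s
  · rw [if_pos hn]
  · rw [if_neg hn]
    congr 1
    omega

theorem exists_brickInv (q : Cube S) (F : Finset S) (k : ℕ) :
    ∃ (e : Chart S) (d : S → ℕ), IsBrick e ∧ BrickInv q e d ∧ ∀ s ∈ F, k ≤ d s := by
  classical
  induction F using Finset.induction_on with
  | empty =>
    refine ⟨Chart.id S, fun _ => 0, IsBrick.id, ?_, by simp⟩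
    intro p s n
    simp
  | insert a F _ ih =>
    obtain ⟨e, d, he, h, hk⟩ := ih
    obtain ⟨e', he', h'⟩ := h.exists_deepen he a k
    refine ⟨e', _, he', h', ?_⟩
    intro s hs
    by_cases hsa : s = a
    · subst hsa
      rw [Function.update_self]
      omega
    · rw [Function.update_of_ne hsa]
      exact hk s ((Finset.mem_insert.1 hs).resolve_left hsa)

/-- For every finite set `F` of coordinates and every depth `k` there is a brick around `q` all of whose points agree with `q`
on `F × {0,..,k-1}`.
(Suggested invariant for a brick `e`: there is a depth function `d : S → ℕ` and a point `r` with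
`e p s n = if n < d s then r s n else p s (n - d s)`; `e.cut s b` increases `d s` by one.) -/
theorem exists_brick_agree (q : Cube S) (F : Finset S) (k : ℕ) :
    ∃ e : Chart S, IsBrick e ∧ q ∈ e.rg ∧ ∀ q' ∈ e.rg, ∀ s ∈ F, ∀ n < k, q' s n = q s n := by
  obtain ⟨e, d, he, h, hk⟩ := exists_brickInv q F k
  refine ⟨e, he, h.mem_rg, ?_⟩
  rintro _ ⟨p, rfl⟩ s hs n hn
  rw [h, if_pos (lt_of_lt_of_le hn (hk s hs))]

/-- A neighbourhood of a `0-1` sequence contains a cylinder. -/
theorem exists_depth_of_isOpen (x : ℕ → Bool) {u : Set (ℕ → Bool)} (hu : IsOpen u) (hx : x ∈ u) :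
    ∃ k : ℕ, ∀ y : ℕ → Bool, (∀ n < k, y n = x n) → y ∈ u := by
  obtain ⟨J, v, hv, hJ⟩ := isOpen_pi_iff.1 hu x hx
  refine ⟨J.sup id + 1, fun y hy => hJ ?_⟩
  intro n hn
  have hle : n ≤ J.sup id := Finset.le_sup (f := id) hn
  rw [hy n (by omega)]
  exact (hv n hn).2

/-- Bricks containing `q` form a neighbourhood basis of `q` in the product topology. -/
theorem exists_brick_subset (q : Cube S) {U : Set (Cube S)} (hU : IsOpen U) (hq : q ∈ U) :
    ∃ e : Chart S, IsBrick e ∧ q ∈ e.rg ∧ e.rg ⊆ U := by
  obtain ⟨I, u, hu, hI⟩ := isOpen_pi_iff.1 hU q hq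
  have hk : ∀ a : S, ∃ k : ℕ, a ∈ I → ∀ y : ℕ → Bool, (∀ n < k, y n = q a n) → y ∈ u a := by
    intro a
    by_cases ha : a ∈ I
    · obtain ⟨k, hk⟩ := exists_depth_of_isOpen (q a) (hu a ha).1 (hu a ha).2
      exact ⟨k, fun _ => hk⟩
    · exact ⟨0, fun h => absurd h ha⟩
  choose k hk using hk
  obtain ⟨e, he, hqe, hag⟩ := exists_brick_agree q I (I.sup k)
  refine ⟨e, he, hqe, fun q' hq' => hI ?_⟩
  intro a ha
  refine hk a ha (q' a) fun n hn => hag q' hq' a ha n ?_
  exact lt_of_lt_of_le hn (Finset.le_sup (f := k) ha)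

variable (D : Type u) [Group D] [MulAction D S] [Nonempty S]

/-- `[brick]` belongs to a vertex of `K` (induction; `Good1.cut`, `Good2.left`, `Good2.symm`). -/
theorem IsBrick.good {e : Chart S} (h : IsBrick e) : Good1 D e := by
  induction h with
  | id => exact ⟨base D S, Relation.ReflTransGen.refl, Finset.mem_singleton_self _⟩
  | cut s b _ ih =>
    cases b
    · exact (ih.cut s).left
    · exact (ih.cut s).symm.left

end Claimed.Agent.R152.B
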