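import Claimed.Agent.R152.B.Simple.Elts
import Claimed.Agent.R152.B.Model.Adapted

/-!
# Row 152, module B, sec. 6.3: continuity and bricks

`Cube S = S → ℕ → Bool` carries the product topology (Mathlib instance `Pi.topologicalSpace`, `Bool` discrete).
Black boxes: `Model/Cube.lean`, `Model/Tile.lean`, `Model/Adapted.lean` (`tsp_chart`), `Cut/Part.lean` (`Exp.data`).   Statements FROZEN; auxiliary lemmas welcome.
-/

open Pointwise

namespace Claimed.Agent.R152.B

universe u
variable {D : Type u} [Group D] {S : Type u} [MulAction D S]

theorem continuous_push (s : S) (b : Bool) : Continuous (push s b) := by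
  refine continuous_pi fun t => continuous_pi fun n => ?_
  by_cases h : t = s
  · subst h
    cases n with
    | zero =>
      have : (fun x : Cube S => push t b x t 0) = fun _ => b := by
        funext x; exact push_same_zero t b x
      rw [this]; exact continuous_const
    | succ n =>
      have : (fun x : Cube S => push t b x t (n + 1)) = fun x => x t n := by
        funext x; exact push_same_succ t b x n
      rw [this]; exact (continuous_apply n).comp (continuous_apply t)
  · have : (fun x : Cube S => push s b x t n) = fun x => x t n := by
      funext x; rw [push_ne h]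
    rw [this]; exact (continuous_apply n).comp (continuous_apply t)

theorem continuous_pop (s : S) : Continuous (pop s) := by
  refine continuous_pi fun t => continuous_pi fun n => ?_
  by_cases h : t = s
  · subst h
    have : (fun x : Cube S => pop t x t n) = fun x => x t (n + 1) := by
      funext x; exact pop_same t x n
    rw [this]; exact (continuous_apply (n + 1)).comp (continuous_apply t)
  · have : (fun x : Cube S => pop s x t n) = fun x => x t n := by
      funext x; rw [pop_ne h]
    rw [this]; exact (continuous_apply n).comp (continuous_apply t)

theorem continuous_tw (c : D) : Continuous (tw c : Cube S → Cube S) := by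
  refine continuous_pi fun s => ?_
  exact continuous_apply (c⁻¹ • s)

/-- If both halves `e ∘ push s false`, `e ∘ push s true` are continuous then so is `e`:
`e q = e (push s (q s 0) (pop s q))` and `q ↦ q s 0` is continuous into the discrete space `Bool`. -/
theorem continuous_of_cut {e : Chart S} {s : S} (h0 : Continuous (e.cut s false))
    (h1 : Continuous (e.cut s true)) : Continuous e := by
  have hc : Continuous fun q : Cube S => q s 0 := (continuous_apply 0).comp (continuous_apply s)
  have hcl : IsClopen {q : Cube S | q s 0 = false} :=
    (isClopen_discrete ({false} : Set Bool)).preimage hc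
  have key : (e : Cube S → Cube S) = fun q =>
      if q s 0 = false then e.cut s false (pop s q) else e.cut s true (pop s q) := by
    funext q
    cases hb : q s 0
    · rw [if_pos rfl, Chart.cut_apply, ← hb, push_pop]
    · rw [if_neg (by simp), Chart.cut_apply, ← hb, push_pop]
  rw [key]
  refine Continuous.if ?_ (h0.comp (continuous_pop s)) (h1.comp (continuous_pop s))
  intro a ha
  rw [hcl.frontier_eq] at ha
  exact absurd ha (Set.notMem_empty a)

/-- a twist of a continuous chart is continuous. -/
theorem continuous_twist {e : Chart S} (h : Continuous e) (c : D) : Continuous (e.twist c) :=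
  h.comp (continuous_tw c)

/-- a half of a continuous chart is continuous. -/
theorem continuous_cut {e : Chart S} (h : Continuous e) (s : S) (b : Bool) :
    Continuous (e.cut s b) :=
  h.comp (continuous_push s b)

/-- continuity does not depend on the chart of the tile. -/
theorem continuous_of_mk_eq {e e' : Chart S} (h : Continuous e)
    (he : (Tile.mk e : Tile D S) = Tile.mk e') : Continuous e' := by
  obtain ⟨c, rfl⟩ := Tile.mk_eq_mk.1 he
  exact continuous_twist h c

variable [Nonempty S]

/-- 6.3: all charts of all tiles of all vertices of `K` are continuous  (induction along the zigzag from `{[id]}`: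
base: `e = id.twist c`; `Exp x y`, up: the new tiles are `[e.cut s b]`, every chart of them is `(e.cut s b).twist c`;
down: `continuous_of_cut`). -/
theorem continuous_of_mem_KK {x : Finset (Tile D S)} (hx : x ∈ KK D S) {e : Chart S}
    (he : (Tile.mk e : Tile D S) ∈ x) : Continuous e := by
  have main : ∀ e : Chart S, (Tile.mk e : Tile D S) ∈ x → Continuous e := by
    refine CutSys.K_induction (C := cutSys D S) (o := base D S)
      (p := fun x => ∀ e : Chart S, (Tile.mk e : Tile D S) ∈ x → Continuous e) ?_ ?_ ?_ hx
    · intro e he
      rw [base, Finset.mem_singleton] at he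
      exact continuous_of_mk_eq (D := D) (e := Chart.id S) continuous_id he.symm
    · rintro v - w ⟨a, ha, b, c, hs, -, -, rfl⟩ ih e he
      obtain ⟨ea, rfl⟩ := Tile.exists_mk a
      have hea : Continuous ea := ih ea ha
      obtain ⟨s, hb, hc⟩ := tsp_chart (hs : Tile.TSp (Tile.mk ea) b c) rfl
      rcases mem_rep.1 he with h | h | ⟨-, h⟩
      · exact continuous_of_mk_eq (D := D) (continuous_cut hea s false) (hb.symm.trans h.symm)
      · exact continuous_of_mk_eq (D := D) (continuous_cut hea s true) (hc.symm.trans h.symm)
      · exact ih e h
    · rintro w - v ⟨a, ha, b, c, hs, -, -, rfl⟩ ih e he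
      by_cases hae : (Tile.mk e : Tile D S) = a
      · obtain ⟨s, hb, hc⟩ := tsp_chart (hs : Tile.TSp a b c) hae.symm
        refine continuous_of_cut (s := s) (ih _ ?_) (ih _ ?_)
        · rw [← hb]; exact mem_rep.2 (Or.inl rfl)
        · rw [← hc]; exact mem_rep.2 (Or.inr (Or.inl rfl))
      · exact ih e (mem_rep.2 (Or.inr (Or.inr ⟨hae, he⟩)))
  exact main e he

/-- **6.3**  Every element of `Gam` is continuous (`g` is a chart of the only tile of the vertex `g • {[id]}`). -/
theorem Gam_continuous {g : Equiv.Perm (Cube S)} (hg : g ∈ Gam D S) : Continuous g := by
  have h1 : g • base D S ∈ KK D S := hg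
  have h2 : (Tile.mk (Chart.act g (Chart.id S)) : Tile D S) ∈ g • base D S := by
    rw [← Tile.smul_mk]
    exact Finset.smul_mem_smul_finset (Finset.mem_singleton_self _)
  exact continuous_of_mem_KK h1 h2

end Claimed.Agent.R152.B
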