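import Claimed.Agent.R152.B.Simple.Ident
import Claimed.Agent.R152.B.Simple.Cont
import Claimed.Agent.R152.B.Simple.Brick
import Claimed.Agent.R152.B.Model.Glue
import Claimed.Agent.R152.B.Spare.Merge

/-!
# Row 152, module B, sec. 6.4, 6.5: a normal subgroup contains all 3-cycles of tiles

A normal subgroup of `Gam` is handled as a subgroup `N'` of `Perm (Cube S)` with
`hnorm : ∀ g ∈ Gam D S, ∀ n ∈ N', g * n * g⁻¹ ∈ N'`.
Black boxes: `Simple/Elts.lean`, `Simple/Ident.lean`, `Simple/Cont.lean`, `Simple/Brick.lean`, `Model/Glue.lean`, `Spare/Merge.lean`.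
Statements FROZEN; auxiliary lemmas welcome.
-/

open Pointwise

namespace Claimed.Agent.R152.B

universe u
variable {D : Type u} [Group D] {S : Type u} [MulAction D S] [Nonempty S]

/-- 6.4, step 1: `g ∈ Gam`, `g q ≠ q` ==> there is a good chart `e` around `q` with `g (range e)` disjoint from `range e`.
(`Cube S` is T2, `g` is continuous: `U := U1 ∩ g ⁻¹' U2` with `U1 ∋ q`, `U2 ∋ g q` disjoint open sets; `exists_brick_subset`, `IsBrick.good`.) -/
theorem exists_sep_chart {g : Equiv.Perm (Cube S)} (hg : g ∈ Gam D S) {q : Cube S}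
    (hq : g q ≠ q) : ∃ e : Chart S, Good1 D e ∧ q ∈ e.rg ∧ Disjoint (g '' e.rg) e.rg := by
  have hc : Continuous g := Gam_continuous hg
  obtain ⟨u, v, hu, hv, hgu, hqv, huv⟩ := t2_separation hq
  have hU : IsOpen (v ∩ g ⁻¹' u) := hv.inter (hu.preimage hc)
  obtain ⟨e, he, hqe, hsub⟩ := exists_brick_subset q hU ⟨hqv, hgu⟩
  refine ⟨e, he.good D, hqe, ?_⟩
  refine Set.disjoint_of_subset ?_ ?_ huv
  · rintro _ ⟨r, hr, rfl⟩
    exact (hsub hr).2
  · intro r hr
    exact (hsub hr).1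

/-- 6.4, step 2 (pure group theory): `X`, `Y` are the identity outside `A`, `g '' A` is disjoint from `A`
==> `[[X,g],Y] = [X,Y]`, written out:  with `Z = g X⁻¹ g⁻¹` (identity outside `g '' A`, so it commutes with `Y`),
`(X Z) Y (X Z)⁻¹ Y⁻¹ = X Y X⁻¹ Y⁻¹`. -/
theorem double_commutator {g Xx Yy : Equiv.Perm (Cube S)} {A : Set (Cube S)}
    (hA : Disjoint (g '' A) A) (hX : ∀ q, q ∉ A → Xx q = q) (hY : ∀ q, q ∉ A → Yy q = q) :
    (Xx * (g * Xx⁻¹ * g⁻¹)) * Yy * (Xx * (g * Xx⁻¹ * g⁻¹))⁻¹ * Yy⁻¹ = Xx * Yy * Xx⁻¹ * Yy⁻¹ := by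
  have hXi : ∀ q, q ∉ A → Xx⁻¹ q = q := by
    intro q hq
    rw [Equiv.Perm.inv_eq_iff_eq]
    exact (hX q hq).symm
  have hZ : ∀ q, q ∉ g '' A → (g * Xx⁻¹ * g⁻¹) q = q := by
    intro q hq
    have h1 : g⁻¹ q ∉ A := by
      intro h
      exact hq ⟨g⁻¹ q, h, by simp⟩
    simp only [Equiv.Perm.mul_apply]
    rw [hXi _ h1]
    simp
  have hcomm : (g * Xx⁻¹ * g⁻¹) * Yy = Yy * (g * Xx⁻¹ * g⁻¹) :=
    commute_of_disjoint_support hA hZ hY
  generalize g * Xx⁻¹ * g⁻¹ = Z at hcomm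
  calc Xx * Z * Yy * (Xx * Z)⁻¹ * Yy⁻¹ = Xx * (Z * Yy) * Z⁻¹ * Xx⁻¹ * Yy⁻¹ := by group
    _ = Xx * (Yy * Z) * Z⁻¹ * Xx⁻¹ * Yy⁻¹ := by rw [hcomm]
    _ = Xx * Yy * Xx⁻¹ * Yy⁻¹ := by group

/-- **6.4**  A nontrivial normal subgroup contains one 3-cycle of tiles.
`n ∈ N'`, `n q ≠ q`; `e` from `exists_sep_chart`; `range e ≠ univ`, so `Good2 D e e'` for some `e'` (`Good1.alone_or`);
`e1,e2,e3 := e p0, e p1 p0, e p1 p1` (`Good2.cut3`, any coordinate `s`), `X = sw e1 e2`, `Y = sw e2 e3` (in `Gam`, identity outside `range e`).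
`X n X⁻¹ n⁻¹ ∈ N'` (normality), hence `[[X,n],Y] ∈ N'` (normality again), `= [X,Y] = (X Y)^2` (`sw_inv`), and `(X Y)^3 = 1`, so `X Y = ((X Y)^2)^2 ∈ N'`. -/
theorem exists_cyc_mem (N' : Subgroup (Equiv.Perm (Cube S))) (hle : N' ≤ Gam D S)
    (hnorm : ∀ g ∈ Gam D S, ∀ n ∈ N', g * n * g⁻¹ ∈ N') (hne : ∃ n ∈ N', n ≠ 1) :
    ∃ e1 e2 e3 : Chart S, Good3 D e1 e2 e3 ∧ sw e1 e2 * sw e2 e3 ∈ N' := by
  obtain ⟨n, hn, hn1⟩ := hne
  obtain ⟨q, hq⟩ : ∃ q, n q ≠ q := by
    by_contra hcon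
    push Not at hcon
    exact hn1 (Equiv.ext hcon)
  obtain ⟨e, hgood, hqe, hdisj⟩ := exists_sep_chart (hle hn) hq
  have hnu : e.rg ≠ Set.univ := by
    intro hu
    rw [hu] at hdisj
    exact Set.disjoint_left.1 hdisj ⟨q, Set.mem_univ _, rfl⟩ (Set.mem_univ _)
  obtain ⟨e', he'⟩ := hgood.alone_or.resolve_left hnu
  obtain ⟨s⟩ := ‹Nonempty S›
  have G3 := he'.cut3 s
  refine ⟨_, _, _, G3, ?_⟩
  have hXG := sw_mem_Gam G3.good12
  have hYG := sw_mem_Gam G3.good23
  have s1 : (e.cut s false).rg ⊆ e.rg := rg_cut_subset e s false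
  have s2 : ((e.cut s true).cut s false).rg ⊆ e.rg :=
    (rg_cut_subset _ s false).trans (rg_cut_subset e s true)
  have s3 : ((e.cut s true).cut s true).rg ⊆ e.rg :=
    (rg_cut_subset _ s true).trans (rg_cut_subset e s true)
  have hX : ∀ r, r ∉ e.rg → sw (e.cut s false) ((e.cut s true).cut s false) r = r :=
    fun r hr => sw_other _ _ (fun h => hr (s1 h)) (fun h => hr (s2 h))
  have hY : ∀ r, r ∉ e.rg →
      sw ((e.cut s true).cut s false) ((e.cut s true).cut s true) r = r :=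
    fun r hr => sw_other _ _ (fun h => hr (s2 h)) (fun h => hr (s3 h))
  have hdc := double_commutator hdisj hX hY
  have h3 := sw_mul_sw_pow_three G3.good12.disjoint G3.good23.disjoint G3.good13.disjoint
  have hXi := sw_inv (e.cut s false) ((e.cut s true).cut s false)
  have hYi := sw_inv ((e.cut s true).cut s false) ((e.cut s true).cut s true)
  generalize sw (e.cut s false) ((e.cut s true).cut s false) = Xx at *
  generalize sw ((e.cut s true).cut s false) ((e.cut s true).cut s true) = Yy at *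
  have hW : Xx * (n * Xx⁻¹ * n⁻¹) ∈ N' := by
    have h1 : Xx * n * Xx⁻¹ ∈ N' := hnorm Xx hXG n hn
    have h2 : Xx * (n * Xx⁻¹ * n⁻¹) = (Xx * n * Xx⁻¹) * n⁻¹ := by group
    rw [h2]
    exact N'.mul_mem h1 (N'.inv_mem hn)
  have hWW : (Xx * (n * Xx⁻¹ * n⁻¹)) * Yy * (Xx * (n * Xx⁻¹ * n⁻¹))⁻¹ * Yy⁻¹ ∈ N' := by
    have h1 := hnorm Yy hYG _ (N'.inv_mem hW)
    have h2 := N'.mul_mem hW h1
    have h3 : (Xx * (n * Xx⁻¹ * n⁻¹)) * Yy * (Xx * (n * Xx⁻¹ * n⁻¹))⁻¹ * Yy⁻¹ =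
        (Xx * (n * Xx⁻¹ * n⁻¹)) * (Yy * (Xx * (n * Xx⁻¹ * n⁻¹))⁻¹ * Yy⁻¹) := by group
    rw [h3]
    exact h2
  rw [hdc, hXi, hYi] at hWW
  have h4 : Xx * Yy = (Xx * Yy * Xx * Yy) * (Xx * Yy * Xx * Yy) := by
    have : (Xx * Yy * Xx * Yy) * (Xx * Yy * Xx * Yy) = (Xx * Yy) ^ 3 * (Xx * Yy) := by
      simp only [pow_succ, pow_zero, one_mul, mul_assoc]
    rw [this, h3, one_mul]
  rw [h4]
  exact N'.mul_mem hWW hWW

/-- merging spare tiles until only four tiles are left -/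
theorem Cycle_four_aux (t1 t2 t3 : Tile D S) (n : ℕ) :
    ∀ x ∈ KK D S, t1 ∈ x → t2 ∈ x → t3 ∈ x → x.card = n + 4 →
      ∃ x' ∈ KK D S, t1 ∈ x' ∧ t2 ∈ x' ∧ t3 ∈ x' ∧ x'.card = 4 := by
  induction n with
  | zero =>
    intro x hx h1 h2 h3 hc
    exact ⟨x, hx, h1, h2, h3, by simpa using hc⟩
  | succ n ih =>
    intro x hx h1 h2 h3 hc
    have hP := KK_isPart hx
    obtain ⟨m, hb, hcc⟩ := CutSys.exists_merge_avoid hP ({t1, t2, t3} : Finset (Tile D S)) (by
      have : ({t1, t2, t3} : Finset (Tile D S)).card ≤ 3 := Finset.card_le_three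
      omega)
    have hexp := m.exp_low hP
    refine ih m.low (CutSys.K_exp_left hx hexp) ?_ ?_ ?_ ?_
    · exact CutSys.mem_mrg_of_mem h1 (fun e => hb (by rw [← e]; simp))
        (fun e => hcc (by rw [← e]; simp))
    · exact CutSys.mem_mrg_of_mem h2 (fun e => hb (by rw [← e]; simp))
        (fun e => hcc (by rw [← e]; simp))
    · exact CutSys.mem_mrg_of_mem h3 (fun e => hb (by rw [← e]; simp))
        (fun e => hcc (by rw [← e]; simp))
    · have := hexp.card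
      omega

/-- 6.5, step 1: the vertex in `Good3` can be chosen with exactly 4 tiles (merge two of the other tiles as long as there are at
least two of them: (A3) = `(cutSys D S).merge`, `CutSys.exp_mrg`, `CutSys.K_exp'`; induction on the number of tiles). -/
theorem Good3.four {e1 e2 e3 : Chart S} (h : Good3 D e1 e2 e3) :
    ∃ x ∈ KK D S, (Tile.mk e1 : Tile D S) ∈ x ∧ (Tile.mk e2 : Tile D S) ∈ x ∧
      (Tile.mk e3 : Tile D S) ∈ x ∧ x.card = 4 := by
  obtain ⟨x, hx, h1, h2, h3, _, _, _, hc⟩ := h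
  obtain ⟨n, hn⟩ := Nat.exists_eq_add_of_le hc
  exact Cycle_four_aux _ _ _ n x hx h1 h2 h3 (by omega)

/-- **6.5**  `Gam` is transitive on good triples of charts (`Good3.four`, `exists_glue_ext` with `A` = the three tiles). -/
theorem good3_conj {e1 e2 e3 f1 f2 f3 : Chart S} (h : Good3 D e1 e2 e3) (h' : Good3 D f1 f2 f3) :
    ∃ g ∈ Gam D S, Chart.act g e1 = f1 ∧ Chart.act g e2 = f2 ∧ Chart.act g e3 = f3 := by
  classical
  obtain ⟨x, hx, a1, a2, a3, hc⟩ := h.four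
  obtain ⟨x', hx', b1, b2, b3, hc'⟩ := h'.four
  obtain ⟨_, _, _, _, _, n12, n23, n13, _⟩ := h
  obtain ⟨_, _, _, _, _, m12, m23, m13, _⟩ := h'
  set t1 : Tile D S := Tile.mk e1 with ht1
  set t2 : Tile D S := Tile.mk e2 with ht2
  set t3 : Tile D S := Tile.mk e3 with ht3
  let σ : Tile D S → Tile D S := fun a =>
    if a = t1 then Tile.mk f1 else if a = t2 then Tile.mk f2 else Tile.mk f3
  let E : Tile D S → Chart S := fun a => if a = t1 then e1 else if a = t2 then e2 else e3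
  let E' : Tile D S → Chart S := fun a => if a = t1 then f1 else if a = t2 then f2 else f3
  have σ1 : σ t1 = Tile.mk f1 := if_pos rfl
  have σ2 : σ t2 = Tile.mk f2 := by
    show (if t2 = t1 then _ else if t2 = t2 then _ else _) = _
    rw [if_neg n12.symm, if_pos rfl]
  have σ3 : σ t3 = Tile.mk f3 := by
    show (if t3 = t1 then _ else if t3 = t2 then _ else _) = _
    rw [if_neg n13.symm, if_neg n23.symm]
  have E1 : E t1 = e1 := if_pos rfl
  have E2 : E t2 = e2 := by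
    show (if t2 = t1 then _ else if t2 = t2 then _ else _) = _
    rw [if_neg n12.symm, if_pos rfl]
  have E3 : E t3 = e3 := by
    show (if t3 = t1 then _ else if t3 = t2 then _ else _) = _
    rw [if_neg n13.symm, if_neg n23.symm]
  have E'1 : E' t1 = f1 := if_pos rfl
  have E'2 : E' t2 = f2 := by
    show (if t2 = t1 then _ else if t2 = t2 then _ else _) = _
    rw [if_neg n12.symm, if_pos rfl]
  have E'3 : E' t3 = f3 := by
    show (if t3 = t1 then _ else if t3 = t2 then _ else _) = _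
    rw [if_neg n13.symm, if_neg n23.symm]
  have hmem : ∀ a ∈ ({t1, t2, t3} : Finset (Tile D S)), a = t1 ∨ a = t2 ∨ a = t3 := by
    intro a ha
    simpa using ha
  obtain ⟨g, hg, _, hgE, _⟩ := exists_glue_ext hx hx' (hc.trans hc'.symm)
    ({t1, t2, t3} : Finset (Tile D S))
    (by
      intro a ha
      rcases hmem a ha with rfl | rfl | rfl
      exacts [a1, a2, a3])
    σ
    (by
      intro a ha b hb hab
      rcases hmem a ha with rfl | rfl | rfl <;> rcases hmem b hb with rfl | rfl | rfl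
      · rfl
      · rw [σ1, σ2] at hab; exact absurd hab m12
      · rw [σ1, σ3] at hab; exact absurd hab m13
      · rw [σ2, σ1] at hab; exact absurd hab.symm m12
      · rfl
      · rw [σ2, σ3] at hab; exact absurd hab m23
      · rw [σ3, σ1] at hab; exact absurd hab.symm m13
      · rw [σ3, σ2] at hab; exact absurd hab.symm m23
      · rfl)
    (by
      intro a ha
      rcases hmem a ha with rfl | rfl | rfl
      · rw [σ1]; exact b1
      · rw [σ2]; exact b2
      · rw [σ3]; exact b3)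
    E E'
    (by
      intro a ha
      rcases hmem a ha with rfl | rfl | rfl
      · rw [E1]
      · rw [E2]
      · rw [E3])
    (by
      intro a ha
      rcases hmem a ha with rfl | rfl | rfl
      · rw [E'1, σ1]
      · rw [E'2, σ2]
      · rw [E'3, σ3])
  refine ⟨g, hg, ?_, ?_, ?_⟩
  · apply Chart.ext
    intro p
    have := hgE t1 (by simp) p
    rwa [E1, E'1] at this
  · apply Chart.ext
    intro p
    have := hgE t2 (by simp) p
    rwa [E2, E'2] at this
  · apply Chart.ext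
    intro p
    have := hgE t3 (by simp) p
    rwa [E3, E'3] at this

/-- **6.5**  All 3-cycles of tiles lie in `N'` (`conj_sw`). -/
theorem cyc_mem_all (N' : Subgroup (Equiv.Perm (Cube S))) (hle : N' ≤ Gam D S)
    (hnorm : ∀ g ∈ Gam D S, ∀ n ∈ N', g * n * g⁻¹ ∈ N') (hne : ∃ n ∈ N', n ≠ 1)
    {f1 f2 f3 : Chart S} (h : Good3 D f1 f2 f3) : sw f1 f2 * sw f2 f3 ∈ N' := by
  obtain ⟨e1, e2, e3, he, hmem⟩ := exists_cyc_mem N' hle hnorm hne
  obtain ⟨g, hg, g1, g2, g3⟩ := good3_conj he h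
  have h1 := hnorm g hg _ hmem
  have h2 : g * (sw e1 e2 * sw e2 e3) * g⁻¹ = (g * sw e1 e2 * g⁻¹) * (g * sw e2 e3 * g⁻¹) := by
    group
  rw [h2, conj_sw, conj_sw, g1, g2, g3] at h1
  exact h1

end Claimed.Agent.R152.B
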