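import Claimed.Agent.R152.B.Model.Tile
import Claimed.Agent.R152.B.Cut.Part

/-!
# Row 152, module B, sec. 6: the elements `sw e1 e2`, `tww c e`; good charts  (definitions for the whole section)

Blueprint: `docs/R152_B.md` (branch `helper22`), sec. 6.
`sw e1 e2` (charts with disjoint ranges): `e1 p ↔ e2 p`, identity elsewhere.   `tww c e`: `e p ↦ e (tw c p)`, identity elsewhere.
`Good1 D e`: the tile `[e]` belongs to a vertex of `K`; `Good2`, `Good3`: two (three) different tiles of one vertex of `K`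
(for `Good3`: a vertex with at least 4 tiles).
Black boxes: `Model/Cube.lean`, `Model/Tile.lean`, `Cut/Part.lean`.  Definitions and statements FROZEN; auxiliary lemmas welcome.
-/

open Pointwise

namespace Claimed.Agent.R152.B

universe u
variable {S : Type u}

open Classical in
/-- The underlying function of `sw`. -/
noncomputable def swFun (e1 e2 : Chart S) (q : Cube S) : Cube S :=
  if h : ∃ p, e1 p = q then e2 h.choose else if h : ∃ p, e2 p = q then e1 h.choose else q

theorem swFun_left (e1 e2 : Chart S) (p : Cube S) : swFun e1 e2 (e1 p) = e2 p := by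
  have h : ∃ p', e1 p' = e1 p := ⟨p, rfl⟩
  unfold swFun
  rw [dif_pos h]
  exact congrArg e2 (e1.inj h.choose_spec)

theorem swFun_right {e1 e2 : Chart S} (h : Disjoint e1.rg e2.rg) (p : Cube S) :
    swFun e1 e2 (e2 p) = e1 p := by
  have h1 : ¬ ∃ p', e1 p' = e2 p := by
    rintro ⟨p', hp'⟩
    exact Set.disjoint_left.mp h ⟨p', rfl⟩ ⟨p, hp'.symm⟩
  have h2 : ∃ p', e2 p' = e2 p := ⟨p, rfl⟩
  unfold swFun
  rw [dif_neg h1, dif_pos h2]
  exact congrArg e1 (e2.inj h2.choose_spec)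

theorem swFun_other {e1 e2 : Chart S} {q : Cube S} (h1 : q ∉ e1.rg) (h2 : q ∉ e2.rg) :
    swFun e1 e2 q = q := by
  have h1' : ¬ ∃ p', e1 p' = q := fun ⟨p', hp'⟩ => h1 ⟨p', hp'⟩
  have h2' : ¬ ∃ p', e2 p' = q := fun ⟨p', hp'⟩ => h2 ⟨p', hp'⟩
  unfold swFun
  rw [dif_neg h1', dif_neg h2']

theorem swFun_involutive {e1 e2 : Chart S} (h : Disjoint e1.rg e2.rg) :
    Function.Involutive (swFun e1 e2) := by
  intro q
  by_cases h1 : q ∈ e1.rg
  · obtain ⟨p, rfl⟩ := h1
    rw [swFun_left, swFun_right h]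
  · by_cases h2 : q ∈ e2.rg
    · obtain ⟨p, rfl⟩ := h2
      rw [swFun_right h, swFun_left]
    · rw [swFun_other h1 h2, swFun_other h1 h2]

open Classical in
/-- `sw e1 e2` (junk value `1` if the ranges are not disjoint). -/
noncomputable def sw (e1 e2 : Chart S) : Equiv.Perm (Cube S) :=
  if h : Disjoint e1.rg e2.rg then (swFun_involutive h).toPerm else 1

theorem sw_left {e1 e2 : Chart S} (h : Disjoint e1.rg e2.rg) (p : Cube S) :
    sw e1 e2 (e1 p) = e2 p := by
  unfold sw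
  rw [dif_pos h]
  exact swFun_left e1 e2 p

theorem sw_right {e1 e2 : Chart S} (h : Disjoint e1.rg e2.rg) (p : Cube S) :
    sw e1 e2 (e2 p) = e1 p := by
  unfold sw
  rw [dif_pos h]
  exact swFun_right h p

theorem sw_other (e1 e2 : Chart S) {q : Cube S} (h1 : q ∉ e1.rg) (h2 : q ∉ e2.rg) :
    sw e1 e2 q = q := by
  unfold sw
  by_cases h : Disjoint e1.rg e2.rg
  · rw [dif_pos h]
    exact swFun_other h1 h2
  · rw [dif_neg h]
    rfl

variable {D : Type u} [Group D] [MulAction D S]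

/-- `c ↦ tww c e` as a homomorphism (6.2e). -/
noncomputable def twwHom (e : Chart S) : D →* Equiv.Perm (Cube S) :=
  (Equiv.Perm.viaEmbeddingHom (⟨e, e.inj⟩ : Cube S ↪ Cube S)).comp tw

/-- `tww c e`: `e p ↦ e (tw c p)`, identity outside the range of `e`. -/
noncomputable def tww (c : D) (e : Chart S) : Equiv.Perm (Cube S) := twwHom e c

theorem tww_apply (c : D) (e : Chart S) (p : Cube S) : tww c e (e p) = e (tw c p) := by
  exact Equiv.Perm.viaEmbedding_apply (tw c) (⟨e, e.inj⟩ : Cube S ↪ Cube S) p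

theorem tww_other (c : D) (e : Chart S) {q : Cube S} (h : q ∉ e.rg) : tww c e q = q := by
  exact Equiv.Perm.viaEmbedding_apply_of_notMem (tw c) (⟨e, e.inj⟩ : Cube S ↪ Cube S) q h

theorem tww_mul (c d : D) (e : Chart S) : tww (c * d) e = tww c e * tww d e :=
  map_mul (twwHom e) c d

theorem tww_inv (c : D) (e : Chart S) : tww c⁻¹ e = (tww c e)⁻¹ :=
  map_inv (twwHom e) c

variable [Nonempty S]

variable (D) in
/-- `[e]` is a tile of a vertex of `K`. -/
def Good1 (e : Chart S) : Prop := ∃ x ∈ KK D S, (Tile.mk e : Tile D S) ∈ x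

variable (D) in
/-- `[e1] ≠ [e2]` are tiles of one vertex of `K`. -/
def Good2 (e1 e2 : Chart S) : Prop :=
  ∃ x ∈ KK D S, (Tile.mk e1 : Tile D S) ∈ x ∧ (Tile.mk e2 : Tile D S) ∈ x ∧
    (Tile.mk e1 : Tile D S) ≠ Tile.mk e2

variable (D) in
/-- `[e1], [e2], [e3]` are three different tiles of one vertex of `K` with at least 4 tiles. -/
def Good3 (e1 e2 e3 : Chart S) : Prop :=
  ∃ x ∈ KK D S, (Tile.mk e1 : Tile D S) ∈ x ∧ (Tile.mk e2 : Tile D S) ∈ x ∧
    (Tile.mk e3 : Tile D S) ∈ x ∧ (Tile.mk e1 : Tile D S) ≠ Tile.mk e2 ∧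
    (Tile.mk e2 : Tile D S) ≠ Tile.mk e3 ∧ (Tile.mk e1 : Tile D S) ≠ Tile.mk e3 ∧ 4 ≤ x.card

/-! ### auxiliary lemmas: expanding a vertex of `K` at `[e]` along `s` -/

theorem Elts_sp (e : Chart S) (s : S) :
    (cutSys D S).Sp (Tile.mk e) (Tile.mk (e.cut s false)) (Tile.mk (e.cut s true)) :=
  show Tile.TSp _ _ _ from ⟨e, s, rfl, rfl, rfl⟩

theorem Elts_rep_mem {x : Finset (Tile D S)} (hx : x ∈ KK D S) {e : Chart S}
    (he : (Tile.mk e : Tile D S) ∈ x) (s : S) :
    rep x (Tile.mk e) (Tile.mk (e.cut s false)) (Tile.mk (e.cut s true)) ∈ KK D S :=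
  CutSys.K_exp hx ((KK_isPart hx).exp_rep he (Elts_sp e s))

omit [Nonempty S] in
theorem Elts_cut_mem_rep (x : Finset (Tile D S)) (e : Chart S) (s : S) (b : Bool) :
    (Tile.mk (e.cut s b) : Tile D S) ∈
      rep x (Tile.mk e) (Tile.mk (e.cut s false)) (Tile.mk (e.cut s true)) := by
  cases b
  · exact mem_rep.2 (Or.inl rfl)
  · exact mem_rep.2 (Or.inr (Or.inl rfl))

theorem Elts_cut_not_mem {x : Finset (Tile D S)} (hx : x ∈ KK D S) {e : Chart S}
    (he : (Tile.mk e : Tile D S) ∈ x) (s : S) (b : Bool) :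
    (Tile.mk (e.cut s b) : Tile D S) ∉ x := by
  cases b
  · exact (KK_isPart hx).sp_not_mem_left he (Elts_sp e s)
  · exact (KK_isPart hx).sp_not_mem_right he (Elts_sp e s)

theorem Elts_card_rep {x : Finset (Tile D S)} (hx : x ∈ KK D S) {e : Chart S}
    (he : (Tile.mk e : Tile D S) ∈ x) (s : S) :
    (rep x (Tile.mk e) (Tile.mk (e.cut s false)) (Tile.mk (e.cut s true))).card = x.card + 1 :=
  ((KK_isPart hx).exp_rep he (Elts_sp e s)).card

omit [Nonempty S] in
theorem Elts_old_mem_rep {x : Finset (Tile D S)} {a : Tile D S} (ha : a ∈ x) {e : Chart S}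
    (hne : a ≠ Tile.mk e) (s : S) :
    a ∈ rep x (Tile.mk e) (Tile.mk (e.cut s false)) (Tile.mk (e.cut s true)) :=
  mem_rep.2 (Or.inr (Or.inr ⟨hne, ha⟩))

theorem Elts_cut_ne (e : Chart S) (s : S) :
    (Tile.mk (e.cut s false) : Tile D S) ≠ Tile.mk (e.cut s true) :=
  CutSys.sp_ne (Elts_sp e s)

omit [Nonempty S] in
theorem Elts_two_le_card {x : Finset (Tile D S)} {a b : Tile D S} (ha : a ∈ x) (hb : b ∈ x)
    (hne : a ≠ b) : 2 ≤ x.card :=
  Finset.one_lt_card.2 ⟨a, ha, b, hb, hne⟩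

omit [Nonempty S] in
theorem Elts_smul_eq {g : Equiv.Perm (Cube S)} {x : Finset (Tile D S)}
    (h : ∀ a ∈ x, g • a ∈ x) : g • x = x := by
  refine Finset.eq_of_subset_of_card_le ?_ (Finset.card_smul_finset g x).ge
  intro b hb
  obtain ⟨a, ha, rfl⟩ := Finset.mem_smul_finset.1 hb
  exact h a ha

/-- a tile of a vertex different from `[e]` has a chart whose range avoids the range of `e` -/
theorem Elts_not_mem_rg {x : Finset (Tile D S)} (hx : x ∈ KK D S) {e e' : Chart S}
    (he : (Tile.mk e : Tile D S) ∈ x) (he' : (Tile.mk e' : Tile D S) ∈ x)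
    (hne : (Tile.mk e' : Tile D S) ≠ Tile.mk e) (p : Cube S) : e' p ∉ e.rg := by
  have hd : Disjoint e'.rg e.rg := (KK_isPart hx).disj _ he' _ he hne
  exact fun h => Set.disjoint_left.1 hd ⟨p, rfl⟩ h

theorem Good2.disjoint {e1 e2 : Chart S} (h : Good2 D e1 e2) : Disjoint e1.rg e2.rg := by
  obtain ⟨x, hx, h1, h2, hne⟩ := h
  exact (KK_isPart hx).disj _ h1 _ h2 hne

theorem Good2.symm {e1 e2 : Chart S} (h : Good2 D e1 e2) : Good2 D e2 e1 := by
  obtain ⟨x, hx, h1, h2, hne⟩ := h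
  exact ⟨x, hx, h2, h1, hne.symm⟩

theorem Good2.left {e1 e2 : Chart S} (h : Good2 D e1 e2) : Good1 D e1 := by
  obtain ⟨x, hx, h1, -, -⟩ := h
  exact ⟨x, hx, h1⟩

theorem Good2.twist_left {e1 e2 : Chart S} (h : Good2 D e1 e2) (c : D) :
    Good2 D (e1.twist c) e2 := by
  unfold Good2
  rw [Tile.mk_twist]
  exact h

theorem Good3.good12 {e1 e2 e3 : Chart S} (h : Good3 D e1 e2 e3) : Good2 D e1 e2 := by
  obtain ⟨x, hx, h1, h2, -, h12, -, -, -⟩ := h
  exact ⟨x, hx, h1, h2, h12⟩

theorem Good3.good23 {e1 e2 e3 : Chart S} (h : Good3 D e1 e2 e3) : Good2 D e2 e3 := by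
  obtain ⟨x, hx, -, h2, h3, -, h23, -, -⟩ := h
  exact ⟨x, hx, h2, h3, h23⟩

theorem Good3.good13 {e1 e2 e3 : Chart S} (h : Good3 D e1 e2 e3) : Good2 D e1 e3 := by
  obtain ⟨x, hx, h1, -, h3, -, -, h13, -⟩ := h
  exact ⟨x, hx, h1, h3, h13⟩

/-- Expanding the vertex at `[e]` along `s`. -/
theorem Good1.cut {e : Chart S} (h : Good1 D e) (s : S) :
    Good2 D (e.cut s false) (e.cut s true) := by
  obtain ⟨x, hx, he⟩ := h
  exact ⟨_, Elts_rep_mem hx he s, Elts_cut_mem_rep x e s false, Elts_cut_mem_rep x e s true,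
    Elts_cut_ne e s⟩

theorem Good2.cut_left {e e' : Chart S} (h : Good2 D e e') (s : S) (b : Bool) :
    Good2 D (e.cut s b) e' := by
  obtain ⟨x, hx, h1, h2, hne⟩ := h
  refine ⟨_, Elts_rep_mem hx h1 s, Elts_cut_mem_rep x e s b, Elts_old_mem_rep h2 hne.symm s, ?_⟩
  intro heq
  exact Elts_cut_not_mem hx h1 s b (heq ▸ h2)

/-- Expanding the vertex at `[e1]` and at `[e2]` along `s`: four different tiles of a vertex with at least 4 tiles. -/
theorem Good2.cut4 {e1 e2 : Chart S} (h : Good2 D e1 e2) (s : S) :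
    Good3 D (e1.cut s false) (e2.cut s false) (e1.cut s true) ∧
    Good3 D (e2.cut s false) (e1.cut s true) (e2.cut s true) := by
  obtain ⟨x, hx, h1, h2, hne⟩ := h
  have hy := Elts_rep_mem hx h1 s
  have h2y := Elts_old_mem_rep h2 hne.symm s
  have hz := Elts_rep_mem hy h2y s
  have hcard := Elts_card_rep hy h2y s
  rw [Elts_card_rep hx h1 s] at hcard
  have hx2 := Elts_two_le_card h1 h2 hne
  -- the tiles `[e1 b]` of `y` are different from `[e2]` and from `[e2 b']`
  have hA : ∀ b, (Tile.mk (e1.cut s b) : Tile D S) ≠ Tile.mk e2 := fun b heq =>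
    Elts_cut_not_mem hx h1 s b (heq ▸ h2)
  have hB : ∀ b b', (Tile.mk (e1.cut s b) : Tile D S) ≠ Tile.mk (e2.cut s b') := fun b b' heq =>
    Elts_cut_not_mem hy h2y s b' (heq ▸ Elts_cut_mem_rep x e1 s b)
  have m1 : ∀ b, (Tile.mk (e1.cut s b) : Tile D S) ∈ _ := fun b =>
    Elts_old_mem_rep (Elts_cut_mem_rep x e1 s b) (hA b) s
  have m2 : ∀ b, (Tile.mk (e2.cut s b) : Tile D S) ∈ _ := fun b =>
    Elts_cut_mem_rep (rep x (Tile.mk e1) (Tile.mk (e1.cut s false)) (Tile.mk (e1.cut s true)))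
      e2 s b
  exact ⟨⟨_, hz, m1 false, m2 false, m1 true, hB false false, (hB true false).symm,
      Elts_cut_ne e1 s, by omega⟩,
    ⟨_, hz, m2 false, m1 true, m2 true, (hB true false).symm, hB true true,
      Elts_cut_ne e2 s, by omega⟩⟩

/-- `[e]` in a vertex with at least two tiles: `e p0`, `e p1 p0`, `e p1 p1` are three tiles of a vertex with at least 4 tiles. -/
theorem Good2.cut3 {e e' : Chart S} (h : Good2 D e e') (s : S) :
    Good3 D (e.cut s false) ((e.cut s true).cut s false) ((e.cut s true).cut s true) := by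
  obtain ⟨x, hx, h1, h2, hne⟩ := h
  have hy := Elts_rep_mem hx h1 s
  have h1y := Elts_cut_mem_rep x e s true
  have h0y := Elts_cut_mem_rep x e s false
  have hz := Elts_rep_mem hy h1y s
  have hcard := Elts_card_rep hy h1y s
  rw [Elts_card_rep hx h1 s] at hcard
  have hx2 := Elts_two_le_card h1 h2 hne
  have hB : ∀ b, (Tile.mk (e.cut s false) : Tile D S) ≠ Tile.mk ((e.cut s true).cut s b) :=
    fun b heq => Elts_cut_not_mem hy h1y s b (heq ▸ h0y)
  exact ⟨_, hz, Elts_old_mem_rep h0y (Elts_cut_ne e s) s, Elts_cut_mem_rep _ _ s false,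
    Elts_cut_mem_rep _ _ s true, hB false, Elts_cut_ne _ s, hB true, by omega⟩

/-- A tile of a vertex of `K` is alone in its vertex or has a neighbour. -/
theorem Good1.alone_or {e : Chart S} (h : Good1 D e) :
    e.rg = Set.univ ∨ ∃ e' : Chart S, Good2 D e e' := by
  obtain ⟨x, hx, he⟩ := h
  by_cases hex : ∃ a ∈ x, a ≠ (Tile.mk e : Tile D S)
  · obtain ⟨a, ha, hne⟩ := hex
    obtain ⟨e', rfl⟩ := Tile.exists_mk a
    exact Or.inr ⟨e', x, hx, he, ha, hne.symm⟩
  · left
    rw [Set.eq_univ_iff_forall]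
    intro q
    obtain ⟨a, ha, hq⟩ := (KK_isPart hx).cover q
    have hae : a = Tile.mk e := by
      by_contra hne
      exact hex ⟨a, ha, hne⟩
    rw [hae] at hq
    exact hq

/-- `sw e1 e2` permutes the tiles of the vertex (`[e1] ↔ [e2]`, the others are fixed because `sw ∘ e = e`), so it is in `Gam`
(`mem_Gam_of_smul`). -/
theorem sw_mem_Gam {e1 e2 : Chart S} (h : Good2 D e1 e2) : sw e1 e2 ∈ Gam D S := by
  have hd := h.disjoint
  obtain ⟨x, hx, h1, h2, hne⟩ := h
  have hfix : sw e1 e2 • x = x := by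
    refine Elts_smul_eq fun a ha => ?_
    obtain ⟨e, rfl⟩ := Tile.exists_mk a
    rw [Tile.smul_mk]
    by_cases ha1 : (Tile.mk e : Tile D S) = Tile.mk e1
    · obtain ⟨c, rfl⟩ := Tile.mk_eq_mk.1 ha1.symm
      have : Chart.act (sw e1 e2) (e1.twist c) = e2.twist c := by
        ext p
        rw [Chart.act_apply, Chart.twist_apply, Chart.twist_apply, sw_left hd]
      rw [this, Tile.mk_twist]
      exact h2
    · by_cases ha2 : (Tile.mk e : Tile D S) = Tile.mk e2
      · obtain ⟨c, rfl⟩ := Tile.mk_eq_mk.1 ha2.symm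
        have : Chart.act (sw e1 e2) (e2.twist c) = e1.twist c := by
          ext p
          rw [Chart.act_apply, Chart.twist_apply, Chart.twist_apply, sw_right hd]
        rw [this, Tile.mk_twist]
        exact h1
      · have : Chart.act (sw e1 e2) e = e := by
          ext p
          rw [Chart.act_apply, sw_other e1 e2 (Elts_not_mem_rg hx h1 ha ha1 p)
            (Elts_not_mem_rg hx h2 ha ha2 p)]
        rw [this]
        exact ha
  exact mem_Gam_of_smul hx (by rw [hfix]; exact hx)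

/-- `tww c e` fixes every tile of the vertex. -/
theorem tww_mem_Gam {e : Chart S} (h : Good1 D e) (c : D) : tww c e ∈ Gam D S := by
  obtain ⟨x, hx, he⟩ := h
  have hfix : tww c e • x = x := by
    refine Elts_smul_eq fun a ha => ?_
    obtain ⟨e', rfl⟩ := Tile.exists_mk a
    rw [Tile.smul_mk]
    by_cases ha1 : (Tile.mk e' : Tile D S) = Tile.mk e
    · obtain ⟨c', rfl⟩ := Tile.mk_eq_mk.1 ha1.symm
      have : Chart.act (tww c e) (e.twist c') = e.twist (c * c') := by
        ext p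
        rw [Chart.act_apply, Chart.twist_apply, Chart.twist_apply, tww_apply, map_mul]
        rfl
      rw [this, Tile.mk_twist]
      exact he
    · have : Chart.act (tww c e) e' = e' := by
        ext p
        rw [Chart.act_apply, tww_other c e (Elts_not_mem_rg hx he ha ha1 p)]
      rw [this]
      exact ha
  exact mem_Gam_of_smul hx (by rw [hfix]; exact hx)

end Claimed.Agent.R152.B
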