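import Claimed.Agent.R152.B.Simple.Ident
import Claimed.Agent.R152.B.Model.Tower
import Claimed.Agent.R152.B.Model.Stab

/-!
# Row 152, module B, sec. 6.0, 6.1: generators of `Gam`

To avoid subtypes, normal subgroups of `Gam` are handled as subgroups `N'` of `Perm (Cube S)`.
Black boxes: `Model/*`, `Simple/Elts.lean`, `Simple/Ident.lean`.   Statements FROZEN; auxiliary lemmas welcome.
-/

open Pointwise

namespace Claimed.Agent.R152.B

universe u
variable {D : Type u} [Group D] {S : Type u} [MulAction D S] [Nonempty S] {s0 t0 : S}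

/-- **6.0**  `Gam` is generated by the vertex stabilisers.
Proof.  Claim: every `x ∈ K` is `g • vv n` with `g ∈ N'`, `n + 1 = |x|`.  Induction along the zigzag from `vv 0`.
Up: `x = g • vv n`, `Exp x y`: `g⁻¹ • y` is an expansion of `vv n` (`smul_exp`); `trans_exp` gives `h` with `h • vv n = vv n`, `h • vv (n+1) = g⁻¹ • y`;
`h ∈ N'`; `y = (g h) • vv (n+1)`.   Down: `x = g • vv (m+1)`, `Exp y x`: `trans_exp_down` gives `h` with `h • vv (m+1) = vv (m+1)`, `h • vv m = g⁻¹ • y`.
Finally for `g ∈ Gam`: `g • vv 0 = g' • vv 0` with `g' ∈ N'` (cardinality), and `g'⁻¹ g` fixes `vv 0`. -/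
theorem Gam_le_of_stab (H : Hyp D S s0 t0) (N' : Subgroup (Equiv.Perm (Cube S)))
    (h : ∀ x ∈ KK D S, ∀ g : Equiv.Perm (Cube S), g • x = x → g ∈ N') : Gam D S ≤ N' := by
  have key : ∀ x ∈ KK D S, ∃ g ∈ N', ∃ n : ℕ, g • vv D S n = x := by
    intro x hx
    refine CutSys.K_induction (C := cutSys D S) (o := base D S)
      (p := fun x => ∃ g ∈ N', ∃ n : ℕ, g • vv D S n = x) ?_ ?_ ?_ hx
    · exact ⟨1, N'.one_mem, 0, by rw [one_smul, vv_zero]⟩
    · rintro v _ w hvw ⟨g, hg, n, rfl⟩
      have h1 : (cutSys D S).Exp (vv D S n) (g⁻¹ • w) := by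
        have := smul_exp g⁻¹ hvw
        rwa [inv_smul_smul] at this
      obtain ⟨h0, _, h2, h3⟩ := trans_exp H (vv_mem n) (vv_exp n) h1
      refine ⟨g * h0, N'.mul_mem hg (h _ (vv_mem n) h0 h2), n + 1, ?_⟩
      rw [mul_smul, h3, smul_inv_smul]
    · rintro w _ v hvw ⟨g, hg, n, rfl⟩
      have hc : n + 1 = v.card + 1 := by
        rw [← hvw.card, Finset.card_smul_finset, vv_card]
      have hv0 : 0 < v.card := by
        obtain ⟨a, ha, _⟩ := hvw
        exact Finset.card_pos.2 ⟨a, ha⟩
      obtain ⟨m, rfl⟩ : ∃ m, n = m + 1 := ⟨n - 1, by omega⟩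
      have h1 : (cutSys D S).Exp (g⁻¹ • v) (vv D S (m + 1)) := by
        have := smul_exp g⁻¹ hvw
        rwa [inv_smul_smul] at this
      obtain ⟨h0, _, h2, h3⟩ := trans_exp_down H (vv_mem (m + 1)) (vv_exp m) h1
      refine ⟨g * h0, N'.mul_mem hg (h _ (vv_mem (m + 1)) h0 h2), m, ?_⟩
      rw [mul_smul, h3, smul_inv_smul]
  intro g hg
  obtain ⟨g', hg', n, hn⟩ := key (g • base D S) (mem_Gam.1 hg)
  have hn0 : n = 0 := by
    have h1 := congrArg Finset.card hn
    rw [Finset.card_smul_finset, Finset.card_smul_finset, vv_card, ← vv_zero, vv_card] at h1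
    omega
  subst hn0
  have h2 : (g'⁻¹ * g) • vv D S 0 = vv D S 0 := by
    rw [mul_smul, vv_zero, ← hn, vv_zero, inv_smul_smul]
  have h3 := N'.mul_mem hg' (h _ (vv_mem 0) _ h2)
  rwa [mul_inv_cancel_left] at h3

omit [Nonempty S] in
theorem Gen_supp_eq_rg_out (a : Tile D S) : Tile.supp a = a.out.rg := by
  conv_lhs => rw [← Tile.mk_out a]
  rfl

omit [Nonempty S] in
/-- a permutation which is the identity on the support of a tile fixes the tile -/
theorem Gen_smul_eq_of_fix {h : Equiv.Perm (Cube S)} {t : Tile D S}
    (hf : ∀ q ∈ Tile.supp t, h q = q) : h • t = t := by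
  obtain ⟨e, rfl⟩ := Tile.exists_mk t
  rw [Tile.smul_mk]
  congr 1
  ext x
  exact congrFun (congrFun (hf (e x) ⟨x, rfl⟩) _) _

omit [Nonempty S] in
theorem Gen_tww_smul_self (c : D) (e : Chart S) : tww c e • (Tile.mk e : Tile D S) = Tile.mk e := by
  rw [Tile.smul_mk, ← Tile.mk_twist e c]
  congr 1
  ext x
  exact congrFun (congrFun (tww_apply c e x) _) _

omit [Nonempty S] in
theorem Gen_sw_smul_left {e1 e2 : Chart S} (h : Disjoint e1.rg e2.rg) :
    sw e1 e2 • (Tile.mk e1 : Tile D S) = Tile.mk e2 := by
  rw [Tile.smul_mk]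
  congr 1
  ext x
  exact congrFun (congrFun (sw_left h x) _) _

omit [Nonempty S] in
theorem Gen_sw_smul_right {e1 e2 : Chart S} (h : Disjoint e1.rg e2.rg) :
    sw e1 e2 • (Tile.mk e2 : Tile D S) = Tile.mk e1 := by
  rw [Tile.smul_mk]
  congr 1
  ext x
  exact congrFun (congrFun (sw_right h x) _) _

theorem Gen_disj {x : Finset (Tile D S)} (hx : (cutSys D S).IsPart x) {a b : Tile D S}
    (ha : a ∈ x) (hb : b ∈ x) (hab : a ≠ b) : Disjoint a.out.rg b.out.rg := by
  have h : Disjoint (Tile.supp a) (Tile.supp b) := hx.disj a ha b hb hab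
  rwa [Gen_supp_eq_rg_out, Gen_supp_eq_rg_out] at h

theorem Gen_fix_aux {x : Finset (Tile D S)} (hx : (cutSys D S).IsPart x)
    (N' : Subgroup (Equiv.Perm (Cube S)))
    (htw : ∀ a ∈ x, ∀ c : D, tww c a.out ∈ N') (A : Finset (Tile D S)) :
    A ⊆ x → ∀ g : Equiv.Perm (Cube S), (∀ a ∈ x, g • a = a) →
      (∀ a ∈ x, a ∉ A → ∀ q ∈ Tile.supp a, g q = q) → g ∈ N' := by
  induction A using Finset.induction_on with
  | empty =>
    intro _ g _ hid
    have : g = 1 := by
      ext1 q
      obtain ⟨a, ha, hq⟩ := hx.cover q
      exact hid a ha (Finset.notMem_empty a) q hq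
    rw [this]
    exact N'.one_mem
  | insert a A' haA ih =>
    intro hsub g hg hid
    have hax : a ∈ x := hsub (Finset.mem_insert_self a A')
    have hA'x : A' ⊆ x := fun t ht => hsub (Finset.mem_insert_of_mem ht)
    -- the twist
    have h1 : (Tile.mk a.out : Tile D S) = Tile.mk (Chart.act g a.out) := by
      rw [← Tile.smul_mk, Tile.mk_out, hg a hax]
    obtain ⟨c, hc⟩ := Tile.mk_eq_mk.1 h1
    have hge : ∀ p, g (a.out p) = tww c a.out (a.out p) := by
      intro p
      rw [tww_apply]
      have := congrArg (fun e : Chart S => e p) hc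
      simpa using this
    -- `tww` fixes all the tiles of `x`
    have htfix : ∀ b ∈ x, tww c a.out • b = b := by
      intro b hb
      by_cases hba : b = a
      · subst hba
        conv_lhs => rw [← Tile.mk_out b]
        conv_rhs => rw [← Tile.mk_out b]
        have := Gen_tww_smul_self (D := D) c (Tile.out b)
        simpa using this
      · apply Gen_smul_eq_of_fix
        intro q hq
        apply tww_other
        intro hqa
        rw [Gen_supp_eq_rg_out] at hq
        exact Set.disjoint_left.mp (Gen_disj hx hb hax hba) hq hqa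
    have hmem : (tww c a.out)⁻¹ * g ∈ N' := by
      apply ih hA'x
      · intro b hb
        rw [mul_smul, hg b hb, inv_smul_eq_iff, htfix b hb]
      · intro b hb hbA q hq
        rw [Equiv.Perm.mul_apply, Equiv.Perm.inv_eq_iff_eq]
        by_cases hba : b = a
        · subst hba
          rw [Gen_supp_eq_rg_out] at hq
          obtain ⟨p, rfl⟩ := hq
          exact hge p
        · have hb' : b ∉ insert a A' := by
            rw [Finset.mem_insert]
            rintro (h | h)
            · exact hba h
            · exact hbA h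
          rw [hid b hb hb' q hq]
          symm
          apply tww_other
          intro hqa
          rw [Gen_supp_eq_rg_out] at hq
          exact Set.disjoint_left.mp (Gen_disj hx hb hax hba) hq hqa
    have := N'.mul_mem (htw a hax c) hmem
    rwa [mul_inv_cancel_left] at this

/-- 6.1, first half: a permutation fixing every tile of the partition `x` is a product of `tww`'s.
(Induction on a Finset `A ⊆ x`: if `g` fixes every tile of `x` and is the identity on the supports of the tiles outside `A` then `g ∈ N'`.
Step: `g ∘ e_a = e_a ∘ tw c` (`Tile.mk_eq_mk`), replace `g` by `(tww c e_a)⁻¹ * g`.) -/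
theorem fix_le {x : Finset (Tile D S)} (hx : (cutSys D S).IsPart x)
    (N' : Subgroup (Equiv.Perm (Cube S)))
    (htw : ∀ a ∈ x, ∀ c : D, tww c a.out ∈ N')
    {g : Equiv.Perm (Cube S)} (hg : ∀ a ∈ x, g • a = a) : g ∈ N' :=
  Gen_fix_aux hx N' htw x (Finset.Subset.refl x) g hg (fun _ ha hna => absurd ha hna)

theorem Gen_stab_aux {x : Finset (Tile D S)} (hx : (cutSys D S).IsPart x)
    (N' : Subgroup (Equiv.Perm (Cube S)))
    (hsw : ∀ a ∈ x, ∀ b ∈ x, a ≠ b → sw a.out b.out ∈ N')
    (htw : ∀ a ∈ x, ∀ c : D, tww c a.out ∈ N') (n : ℕ) :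
    ∀ g : Equiv.Perm (Cube S), g • x = x → (x.filter (fun a => g • a ≠ a)).card ≤ n → g ∈ N' := by
  induction n with
  | zero =>
    intro g _ hcard
    apply fix_le hx N' htw
    intro a ha
    by_contra hne
    have : a ∈ x.filter (fun a => g • a ≠ a) := Finset.mem_filter.2 ⟨ha, hne⟩
    rw [Nat.le_zero, Finset.card_eq_zero] at hcard
    rw [hcard] at this
    exact Finset.notMem_empty a this
  | succ n ih =>
    intro g hg hcard
    by_cases hall : ∀ a ∈ x, g • a = a
    · exact fix_le hx N' htw hall
    · push Not at hall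
      obtain ⟨a, ha, hne⟩ := hall
      have hb : g • a ∈ x := by
        have := Finset.smul_mem_smul_finset (a := g) ha
        rwa [hg] at this
      have hd : Disjoint a.out.rg (g • a).out.rg := Gen_disj hx ha hb (Ne.symm hne)
      have hswa : sw a.out (g • a).out • (g • a) = a := by
        have := Gen_sw_smul_right (D := D) hd
        simpa using this
      have hswb : sw a.out (g • a).out • a = g • a := by
        have := Gen_sw_smul_left (D := D) hd
        simpa using this
      have hswo : ∀ t ∈ x, t ≠ a → t ≠ g • a → sw a.out (g • a).out • t = t := by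
        intro t ht hta htb
        apply Gen_smul_eq_of_fix
        intro q hq
        rw [Gen_supp_eq_rg_out] at hq
        apply sw_other
        · intro hqa
          exact Set.disjoint_left.mp (Gen_disj hx ht ha hta) hq hqa
        · intro hqb
          exact Set.disjoint_left.mp (Gen_disj hx ht hb htb) hq hqb
      have hswx : sw a.out (g • a).out • x = x := by
        apply Finset.eq_of_subset_of_card_le
        · intro t ht
          obtain ⟨t', ht', rfl⟩ := Finset.mem_smul_finset.1 ht
          by_cases h1 : t' = a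
          · subst h1
            rw [hswb]; exact hb
          · by_cases h2 : t' = g • a
            · rw [h2, hswa]; exact ha
            · rw [hswo t' ht' h1 h2]; exact ht'
        · rw [Finset.card_smul_finset]
      have hmem : sw a.out (g • a).out * g ∈ N' := by
        apply ih
        · rw [mul_smul, hg, hswx]
        · have hss : x.filter (fun t => (sw a.out (g • a).out * g) • t ≠ t)
              ⊆ (x.filter (fun t => g • t ≠ t)).erase a := by
            intro t ht
            rw [Finset.mem_filter] at ht
            obtain ⟨htx, htne⟩ := ht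
            rw [Finset.mem_erase, Finset.mem_filter]
            refine ⟨?_, htx, ?_⟩
            · rintro rfl
              apply htne
              rw [mul_smul, hswa]
            · intro hgt
              apply htne
              rw [mul_smul, hgt]
              apply hswo t htx
              · rintro rfl
                exact hne hgt
              · intro h
                have h' : g • t = g • a := by rw [hgt]; exact h
                have := MulAction.injective g h'
                subst this
                exact hne hgt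
          have hamem : a ∈ x.filter (fun t => g • t ≠ t) := Finset.mem_filter.2 ⟨ha, hne⟩
          have h3 := Finset.card_le_card hss
          rw [Finset.card_erase_of_mem hamem] at h3
          omega
      have h4 := N'.mul_mem (N'.inv_mem (hsw a ha (g • a) hb (Ne.symm hne))) hmem
      rwa [inv_mul_cancel_left] at h4

/-- **6.1**  `Stab(x)` is generated by the `sw e_a e_b` and `tww c e_a` (`e_a = Tile.out a`).
(Induction on the number of tiles `a ∈ x` with `g • a ≠ a`.  If `g • a = b ≠ a` then `sw e_a e_b * g` fixes `a` and all tiles fixed by `g`.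
If there is none: `fix_le`.) -/
theorem stab_le {x : Finset (Tile D S)} (hx : (cutSys D S).IsPart x)
    (N' : Subgroup (Equiv.Perm (Cube S)))
    (hsw : ∀ a ∈ x, ∀ b ∈ x, a ≠ b → sw a.out b.out ∈ N')
    (htw : ∀ a ∈ x, ∀ c : D, tww c a.out ∈ N')
    {g : Equiv.Perm (Cube S)} (hg : g • x = x) : g ∈ N' :=
  Gen_stab_aux hx N' hsw htw _ g hg le_rfl

end Claimed.Agent.R152.B
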