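import Claimed.Agent.R152.B.Simple.Elts

/-!
# Row 152, module B, sec. 6.2: IDENTITIES between `sw` and `tww` (all checked pointwise)

Method: `Equiv.ext`, then distinguish in which range the point lies (`sw_left`, `sw_right`, `sw_other`, `tww_apply`, `tww_other`;
`range_push`, `push_pop` to split a point `e p` as `e (push s (p s 0) (pop s p))`).
Black boxes: `Model/Cube.lean`, `Simple/Elts.lean`.   Statements FROZEN; auxiliary lemmas welcome.
-/

namespace Claimed.Agent.R152.B

universe u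
variable {S : Type u}

theorem rg_cut_subset (e : Chart S) (s : S) (b : Bool) : (e.cut s b).rg ⊆ e.rg := by
  rintro _ ⟨x, rfl⟩
  exact ⟨push s b x, rfl⟩

theorem rg_cut_disjoint (e : Chart S) (s : S) : Disjoint (e.cut s false).rg (e.cut s true).rg := by
  rw [Set.disjoint_left]
  rintro _ ⟨x, rfl⟩ ⟨y, hy⟩
  have h1 : push s true y = push s false x := e.inj hy
  have h2 := congrFun (congrFun h1 s) 0
  simp at h2

/-- every point of the cube is in the range of one of the two `push s b` -/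
theorem rg_cut_cases (s : S) (p : Cube S) :
    ∃ (b : Bool) (p' : Cube S), p = push s b p' :=
  ⟨p s 0, pop s p, (push_pop s p).symm⟩

theorem rg_cut_union (e : Chart S) (s : S) : (e.cut s false).rg ∪ (e.cut s true).rg = e.rg := by
  apply Set.eq_of_subset_of_subset
  · exact Set.union_subset (rg_cut_subset e s false) (rg_cut_subset e s true)
  · rintro _ ⟨p, rfl⟩
    obtain ⟨b, p', rfl⟩ := rg_cut_cases s p
    cases b
    · exact Or.inl ⟨p', rfl⟩
    · exact Or.inr ⟨p', rfl⟩

theorem rg_act (g : Equiv.Perm (Cube S)) (e : Chart S) : (Chart.act g e).rg = g '' e.rg := by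
  apply Set.eq_of_subset_of_subset
  · rintro _ ⟨x, rfl⟩
    exact ⟨e x, ⟨x, rfl⟩, rfl⟩
  · rintro _ ⟨_, ⟨x, rfl⟩, rfl⟩
    exact ⟨x, rfl⟩

theorem mem_rg (e : Chart S) (p : Cube S) : e p ∈ e.rg := ⟨p, rfl⟩

theorem not_mem_rg_right {e1 e2 : Chart S} (h : Disjoint e1.rg e2.rg) (p : Cube S) :
    e1 p ∉ e2.rg := Set.disjoint_left.1 h (mem_rg e1 p)

theorem not_mem_rg_left {e1 e2 : Chart S} (h : Disjoint e1.rg e2.rg) (p : Cube S) :
    e2 p ∉ e1.rg := Set.disjoint_right.1 h (mem_rg e2 p)

theorem sw_of_not_disjoint {e1 e2 : Chart S} (h : ¬ Disjoint e1.rg e2.rg) : sw e1 e2 = 1 := by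
  unfold sw
  exact dif_neg h

theorem sw_mul_self (e1 e2 : Chart S) : sw e1 e2 * sw e1 e2 = 1 := by
  by_cases h : Disjoint e1.rg e2.rg
  · apply Equiv.ext
    intro q
    rw [Equiv.Perm.mul_apply, Equiv.Perm.one_apply]
    by_cases h1 : q ∈ e1.rg
    · obtain ⟨p, rfl⟩ := h1
      rw [sw_left h, sw_right h]
    · by_cases h2 : q ∈ e2.rg
      · obtain ⟨p, rfl⟩ := h2
        rw [sw_right h, sw_left h]
      · rw [sw_other e1 e2 h1 h2, sw_other e1 e2 h1 h2]
  · rw [sw_of_not_disjoint h, one_mul]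

theorem sw_inv (e1 e2 : Chart S) : (sw e1 e2)⁻¹ = sw e1 e2 :=
  inv_eq_of_mul_eq_one_right (sw_mul_self e1 e2)

theorem sw_comm {e1 e2 : Chart S} (h : Disjoint e1.rg e2.rg) : sw e1 e2 = sw e2 e1 := by
  apply Equiv.ext
  intro q
  by_cases h1 : q ∈ e1.rg
  · obtain ⟨p, rfl⟩ := h1
    rw [sw_left h, sw_right h.symm]
  · by_cases h2 : q ∈ e2.rg
    · obtain ⟨p, rfl⟩ := h2
      rw [sw_right h, sw_left h.symm]
    · rw [sw_other e1 e2 h1 h2, sw_other e2 e1 h2 h1]

/-- 6.2a: `sw e1 e2 * sw e2 e3` is a 3-cycle of tiles. -/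
theorem sw_mul_sw_pow_three {e1 e2 e3 : Chart S} (h12 : Disjoint e1.rg e2.rg)
    (h23 : Disjoint e2.rg e3.rg) (h13 : Disjoint e1.rg e3.rg) :
    (sw e1 e2 * sw e2 e3) ^ 3 = 1 := by
  have f1 : ∀ p, (sw e1 e2 * sw e2 e3) (e1 p) = e2 p := by
    intro p
    rw [Equiv.Perm.mul_apply, sw_other e2 e3 (not_mem_rg_right h12 p) (not_mem_rg_right h13 p),
      sw_left h12]
  have f2 : ∀ p, (sw e1 e2 * sw e2 e3) (e2 p) = e3 p := by
    intro p
    rw [Equiv.Perm.mul_apply, sw_left h23,
      sw_other e1 e2 (not_mem_rg_left h13 p) (not_mem_rg_left h23 p)]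
  have f3 : ∀ p, (sw e1 e2 * sw e2 e3) (e3 p) = e1 p := by
    intro p
    rw [Equiv.Perm.mul_apply, sw_right h23, sw_right h12]
  have f4 : ∀ q, q ∉ e1.rg → q ∉ e2.rg → q ∉ e3.rg → (sw e1 e2 * sw e2 e3) q = q := by
    intro q h1 h2 h3
    rw [Equiv.Perm.mul_apply, sw_other e2 e3 h2 h3, sw_other e1 e2 h1 h2]
  apply Equiv.ext
  intro q
  rw [pow_succ, pow_succ, pow_one, Equiv.Perm.mul_apply, Equiv.Perm.mul_apply,
    Equiv.Perm.one_apply]
  by_cases h1 : q ∈ e1.rg
  · obtain ⟨p, rfl⟩ := h1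
    rw [f1, f2, f3]
  · by_cases h2 : q ∈ e2.rg
    · obtain ⟨p, rfl⟩ := h2
      rw [f2, f3, f1]
    · by_cases h3 : q ∈ e3.rg
      · obtain ⟨p, rfl⟩ := h3
        rw [f3, f1, f2]
      · rw [f4 q h1 h2 h3, f4 q h1 h2 h3, f4 q h1 h2 h3]

theorem disjoint_rg_cut {e1 e2 : Chart S} (h : Disjoint e1.rg e2.rg) (s : S) (b c : Bool) :
    Disjoint (e1.cut s b).rg (e2.cut s c).rg :=
  Set.disjoint_of_subset (rg_cut_subset e1 s b) (rg_cut_subset e2 s c) h

/-- 6.2b -/
theorem sw_cut {e1 e2 : Chart S} (h : Disjoint e1.rg e2.rg) (s : S) :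
    sw e1 e2 = sw (e1.cut s false) (e2.cut s false) * sw (e1.cut s true) (e2.cut s true) := by
  have hF := disjoint_rg_cut h s false false
  have hT := disjoint_rg_cut h s true true
  apply Equiv.ext
  intro q
  rw [Equiv.Perm.mul_apply]
  by_cases h1 : q ∈ e1.rg
  · obtain ⟨p, rfl⟩ := h1
    rw [sw_left h]
    obtain ⟨b, p', rfl⟩ := rg_cut_cases s p
    cases b
    · have a1 : e1 (push s false p') = e1.cut s false p' := rfl
      have a2 : e2 (push s false p') = e2.cut s false p' := rfl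
      rw [a1, a2, sw_other _ _ (not_mem_rg_right (rg_cut_disjoint e1 s) p')
        (not_mem_rg_right (disjoint_rg_cut h s false true) p'), sw_left hF]
    · have a1 : e1 (push s true p') = e1.cut s true p' := rfl
      have a2 : e2 (push s true p') = e2.cut s true p' := rfl
      rw [a1, a2, sw_left hT, sw_other _ _ (not_mem_rg_left (disjoint_rg_cut h s false true) p')
        (not_mem_rg_left (rg_cut_disjoint e2 s) p')]
  · by_cases h2 : q ∈ e2.rg
    · obtain ⟨p, rfl⟩ := h2
      rw [sw_right h]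
      obtain ⟨b, p', rfl⟩ := rg_cut_cases s p
      cases b
      · have a1 : e1 (push s false p') = e1.cut s false p' := rfl
        have a2 : e2 (push s false p') = e2.cut s false p' := rfl
        rw [a1, a2, sw_other _ _ (not_mem_rg_left (disjoint_rg_cut h s true false) p')
          (not_mem_rg_right (rg_cut_disjoint e2 s) p'), sw_right hF]
      · have a1 : e1 (push s true p') = e1.cut s true p' := rfl
        have a2 : e2 (push s true p') = e2.cut s true p' := rfl
        rw [a1, a2, sw_right hT, sw_other _ _ (not_mem_rg_left (rg_cut_disjoint e1 s) p')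
          (not_mem_rg_right (disjoint_rg_cut h s true false) p')]
    · rw [sw_other e1 e2 h1 h2,
        sw_other _ _ (fun hq => h1 (rg_cut_subset e1 s true hq))
          (fun hq => h2 (rg_cut_subset e2 s true hq)),
        sw_other _ _ (fun hq => h1 (rg_cut_subset e1 s false hq))
          (fun hq => h2 (rg_cut_subset e2 s false hq))]

theorem disjoint_rg_act_iff (g : Equiv.Perm (Cube S)) (e1 e2 : Chart S) :
    Disjoint (Chart.act g e1).rg (Chart.act g e2).rg ↔ Disjoint e1.rg e2.rg := by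
  rw [rg_act, rg_act]
  exact Set.disjoint_image_iff g.injective

/-- Conjugation. -/
theorem conj_sw (g : Equiv.Perm (Cube S)) (e1 e2 : Chart S) :
    g * sw e1 e2 * g⁻¹ = sw (Chart.act g e1) (Chart.act g e2) := by
  by_cases h : Disjoint e1.rg e2.rg
  · have h' : Disjoint (Chart.act g e1).rg (Chart.act g e2).rg := (disjoint_rg_act_iff g e1 e2).2 h
    apply Equiv.ext
    intro q
    obtain ⟨q', rfl⟩ := g.surjective q
    have hinv : g⁻¹ (g q') = q' := Equiv.Perm.inv_eq_iff_eq.mpr rfl
    rw [Equiv.Perm.mul_apply, Equiv.Perm.mul_apply, hinv]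
    by_cases h1 : q' ∈ e1.rg
    · obtain ⟨p, rfl⟩ := h1
      have a1 : g (e1 p) = Chart.act g e1 p := rfl
      rw [sw_left h, a1, sw_left h']
      rfl
    · by_cases h2 : q' ∈ e2.rg
      · obtain ⟨p, rfl⟩ := h2
        have a1 : g (e2 p) = Chart.act g e2 p := rfl
        rw [sw_right h, a1, sw_right h']
        rfl
      · rw [sw_other e1 e2 h1 h2, sw_other]
        · rw [rg_act]
          rintro ⟨x, hx, hxq⟩
          exact h1 (g.injective hxq ▸ hx)
        · rw [rg_act]
          rintro ⟨x, hx, hxq⟩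
          exact h2 (g.injective hxq ▸ hx)
  · have h' : ¬ Disjoint (Chart.act g e1).rg (Chart.act g e2).rg :=
      fun hd => h ((disjoint_rg_act_iff g e1 e2).1 hd)
    rw [sw_of_not_disjoint h, sw_of_not_disjoint h', mul_one, mul_inv_cancel]

/-- a permutation which is the identity outside `A` maps `A` into `A` -/
theorem perm_mem_of_fix_outside {f : Equiv.Perm (Cube S)} {A : Set (Cube S)}
    (hf : ∀ q, q ∉ A → f q = q) {q : Cube S} (hq : q ∈ A) : f q ∈ A := by
  by_contra h
  have h1 : f (f q) = f q := hf _ h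
  have h2 : f q = q := f.injective h1
  exact h (h2.symm ▸ hq)

/-- Permutations with disjoint supports commute (general form used in 6.4 and 6.6):
`f` is the identity outside `A`, `g` is the identity outside `B`, `A`, `B` disjoint. -/
theorem commute_of_disjoint_support {f g : Equiv.Perm (Cube S)} {A B : Set (Cube S)}
    (hAB : Disjoint A B) (hf : ∀ q, q ∉ A → f q = q) (hg : ∀ q, q ∉ B → g q = q) :
    f * g = g * f := by
  apply Equiv.ext
  intro q
  rw [Equiv.Perm.mul_apply, Equiv.Perm.mul_apply]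
  by_cases hA : q ∈ A
  · have hB : q ∉ B := Set.disjoint_left.1 hAB hA
    have hfA : f q ∈ A := perm_mem_of_fix_outside hf hA
    rw [hg q hB, hg (f q) (Set.disjoint_left.1 hAB hfA)]
  · rw [hf q hA]
    by_cases hB : q ∈ B
    · have hgB : g q ∈ B := perm_mem_of_fix_outside hg hB
      rw [hf (g q) (Set.disjoint_right.1 hAB hgB)]
    · rw [hg q hB, hf q hA]

variable {D : Type u} [Group D] [MulAction D S]

theorem rg_twist (e : Chart S) (c : D) : (e.twist c).rg = e.rg := by
  apply Set.eq_of_subset_of_subset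
  · rintro _ ⟨x, rfl⟩
    exact ⟨tw c x, rfl⟩
  · rintro _ ⟨x, rfl⟩
    exact ⟨tw c⁻¹ x, by simp⟩

/-- 6.2c -/
theorem sw_twist {e1 e2 : Chart S} (h : Disjoint e1.rg e2.rg) (c : D) :
    sw (e1.twist c) e2 * sw e1 e2 = tww c e1 * tww c⁻¹ e2 := by
  have h' : Disjoint (e1.twist c).rg e2.rg := by rw [rg_twist]; exact h
  ext1 q
  rw [Equiv.Perm.mul_apply, Equiv.Perm.mul_apply]
  by_cases h1 : q ∈ e1.rg
  · have h2 : q ∉ e2.rg := fun h2 => Set.disjoint_left.mp h h1 h2
    obtain ⟨p, rfl⟩ := h1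
    rw [sw_left h, sw_right h', tww_other _ _ h2, tww_apply, Chart.twist_apply]
  · by_cases h2 : q ∈ e2.rg
    · obtain ⟨p, rfl⟩ := h2
      have h3 : e2 (tw c⁻¹ p) ∉ e1.rg := fun h3 => Set.disjoint_left.mp h h3 ⟨_, rfl⟩
      have h4 : e1 p = (e1.twist c) (tw c⁻¹ p) := by simp
      rw [sw_right h, tww_apply, tww_other _ _ h3, h4, sw_left h']
    · have h1' : q ∉ (e1.twist c).rg := by rw [rg_twist]; exact h1
      rw [sw_other _ _ h1 h2, sw_other _ _ h1' h2, tww_other _ _ h2, tww_other _ _ h1]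

/-- 6.2d -/
theorem tww_cut {c : D} {s : S} (hc : c • s = s) (e : Chart S) :
    tww c e = tww c (e.cut s false) * tww c (e.cut s true) := by
  ext1 q
  rw [Equiv.Perm.mul_apply]
  by_cases hq : q ∈ e.rg
  · obtain ⟨p, rfl⟩ := hq
    have key : ∀ (b : Bool) (p' : Cube S), e (tw c (push s b p')) = (e.cut s b) (tw c p') := by
      intro b p'
      rw [tw_push, hc, Chart.cut_apply]
    have hd := rg_cut_disjoint e s
    rw [tww_apply, ← push_pop s p]
    generalize pop s p = p'
    cases p s 0 with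
    | false =>
      have h1 : e (push s false p') ∉ (e.cut s true).rg :=
        fun h1 => Set.disjoint_left.mp hd ⟨p', rfl⟩ h1
      have h2 : e (push s false p') = (e.cut s false) p' := rfl
      rw [tww_other _ _ h1, h2, tww_apply, key]
    | true =>
      have h1 : (e.cut s true) (tw c p') ∉ (e.cut s false).rg :=
        fun h1 => Set.disjoint_left.mp hd h1 ⟨_, rfl⟩
      have h2 : e (push s true p') = (e.cut s true) p' := rfl
      rw [h2, tww_apply, tww_other _ _ h1, key]
  · have h1 : q ∉ (e.cut s true).rg := fun h1 => hq (rg_cut_subset e s true h1)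
    have h2 : q ∉ (e.cut s false).rg := fun h2 => hq (rg_cut_subset e s false h2)
    rw [tww_other _ _ hq, tww_other _ _ h1, tww_other _ _ h2]

theorem tww_comm {e e' : Chart S} (h : Disjoint e.rg e'.rg) (c d : D) :
    tww c e * tww d e' = tww d e' * tww c e :=
  commute_of_disjoint_support h (fun _ hq => tww_other c e hq) (fun _ hq => tww_other d e' hq)

end Claimed.Agent.R152.B
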