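import Claimed.Agent.R152.B.Simple.Cycle
import Claimed.Agent.R152.B.Simple.Gen
import Claimed.Agent.R152.B.Model.GamFp

/-!
# Row 152, module B, sec. 6.6: `Gam` is simple

Black boxes: `Simple/*`, `Model/GamFp.lean` (`twGam_injective`).   Statements FROZEN; auxiliary lemmas welcome.
No normality is needed in this file before `simple_core`: everything is membership in a subgroup `N'` of `Perm (Cube S)`.
-/

open Pointwise

namespace Claimed.Agent.R152.B

universe u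
variable {D : Type u} [Group D] {S : Type u} [MulAction D S] [Nonempty S] {s0 t0 : S}

/-- 6.6: swaps die.  `sw e1 e2 = A * B`, `A = sw (e1 p0) (e2 p0)`, `B = sw (e1 p1) (e2 p1)` (`sw_cut`); with `Cc = sw (e2 p0) (e1 p1)`:
`A * Cc ∈ N'`, `Cc * B ∈ N'` (`Good2.cut4`), `Cc * Cc = 1`, so `A * B = (A * Cc) * (Cc * B) ∈ N'`. -/
theorem sw_mem (N' : Subgroup (Equiv.Perm (Cube S)))
    (hcyc : ∀ f1 f2 f3 : Chart S, Good3 D f1 f2 f3 → sw f1 f2 * sw f2 f3 ∈ N')
    {e1 e2 : Chart S} (h : Good2 D e1 e2) : sw e1 e2 ∈ N' := by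
  obtain ⟨s⟩ := ‹Nonempty S›
  obtain ⟨h1, h2⟩ := h.cut4 s
  have hA := hcyc _ _ _ h1
  have hB := hcyc _ _ _ h2
  rw [sw_cut h.disjoint s]
  have key : sw (e1.cut s false) (e2.cut s false) * sw (e1.cut s true) (e2.cut s true)
      = (sw (e1.cut s false) (e2.cut s false) * sw (e2.cut s false) (e1.cut s true))
        * (sw (e2.cut s false) (e1.cut s true) * sw (e1.cut s true) (e2.cut s true)) := by
    rw [mul_assoc, ← mul_assoc (sw (e2.cut s false) (e1.cut s true)), sw_mul_self, one_mul]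
  rw [key]
  exact N'.mul_mem hA hB

/-- 6.6: `tww c e1 * tww c⁻¹ e2 ∈ N'` (`sw_twist`, `Good2.twist_left`). -/
theorem tww_mul_tww_mem (N' : Subgroup (Equiv.Perm (Cube S)))
    (hsw : ∀ e1 e2 : Chart S, Good2 D e1 e2 → sw e1 e2 ∈ N')
    {e1 e2 : Chart S} (h : Good2 D e1 e2) (c : D) : tww c e1 * tww c⁻¹ e2 ∈ N' := by
  rw [← sw_twist h.disjoint c]
  exact N'.mul_mem (hsw _ _ (h.twist_left c)) (hsw _ _ h)

/-- 6.6: twists by elements fixing a point die, case of a tile with a neighbour.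
`y0 = tww c (e p0)`, `y1 = tww c (e p1)`, `t = tww c⁻¹ e'`; `tww c e = y0 y1` (`tww_cut`); `y0 y1 t`, `y0 t`, `y1 t ∈ N'`
(`tww_mul_tww_mem`, `Good2.cut_left`); `t` commutes with `y1` (`tww_comm`); `(y0 t)(y1 t) = y0 y1 t t`, so `t ∈ N'` and `y0 y1 ∈ N'`. -/
theorem tww_mem_of_fix_of_good2 (N' : Subgroup (Equiv.Perm (Cube S)))
    (hsw : ∀ e1 e2 : Chart S, Good2 D e1 e2 → sw e1 e2 ∈ N')
    {e e' : Chart S} (h : Good2 D e e') {c : D} {s : S} (hc : c • s = s) : tww c e ∈ N' := by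
  have h01 := tww_mul_tww_mem N' hsw h c
  have h0 := tww_mul_tww_mem N' hsw (h.cut_left s false) c
  have h1 := tww_mul_tww_mem N' hsw (h.cut_left s true) c
  have hcomm := tww_comm (h.cut_left s true).disjoint c c⁻¹
  rw [tww_cut hc e] at h01 ⊢
  generalize tww c (e.cut s false) = y0 at *
  generalize tww c (e.cut s true) = y1 at *
  generalize tww c⁻¹ e' = t at *
  have ht : t ∈ N' := by
    have e1 : t = (y0 * y1 * t)⁻¹ * ((y0 * t) * (y1 * t)) := by
      have : (y0 * t) * (y1 * t) = (y0 * y1 * t) * t := by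
        rw [mul_assoc y0 t, ← mul_assoc t y1 t, ← hcomm]
        simp only [mul_assoc]
      rw [this, inv_mul_cancel_left]
    rw [e1]
    exact N'.mul_mem (N'.inv_mem h01) (N'.mul_mem h0 h1)
  have e2 : y0 * y1 = (y0 * y1 * t) * t⁻¹ := by rw [mul_inv_cancel_right]
  rw [e2]
  exact N'.mul_mem h01 (N'.inv_mem ht)

/-- 6.6: twists by elements fixing a point die (`Good1.alone_or`; if `[e]` is alone use `tww_cut`, `Good1.cut` and the previous lemma for
`e p0`, `e p1`). -/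
theorem tww_mem_of_fix (N' : Subgroup (Equiv.Perm (Cube S)))
    (hsw : ∀ e1 e2 : Chart S, Good2 D e1 e2 → sw e1 e2 ∈ N')
    {e : Chart S} (h : Good1 D e) {c : D} {s : S} (hc : c • s = s) : tww c e ∈ N' := by
  rcases h.alone_or with _ | ⟨e', he'⟩
  · rw [tww_cut hc e]
    have h2 := h.cut s
    exact N'.mul_mem (tww_mem_of_fix_of_good2 N' hsw h2 hc)
      (tww_mem_of_fix_of_good2 N' hsw h2.symm hc)
  · exact tww_mem_of_fix_of_good2 N' hsw he' hc

/-- 6.6: all twists die ((S4): `Subgroup.closure_induction` in `D`, `tww_mul`, `tww_inv`; or `N'.comap (twwHom e) = ⊤`). -/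
theorem tww_mem (H : Hyp D S s0 t0) (N' : Subgroup (Equiv.Perm (Cube S)))
    (hsw : ∀ e1 e2 : Chart S, Good2 D e1 e2 → sw e1 e2 ∈ N')
    {e : Chart S} (h : Good1 D e) (c : D) : tww c e ∈ N' := by
  have hle : Subgroup.closure {c : D | ∃ s : S, c • s = s} ≤ N'.comap (twwHom e) := by
    rw [Subgroup.closure_le]
    rintro c ⟨s, hs⟩
    exact tww_mem_of_fix N' hsw h hs
  have hc : c ∈ N'.comap (twwHom e) := hle (by rw [H.gen]; exact Subgroup.mem_top c)
  exact hc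

/-- **6.6**  A nontrivial subgroup of `Gam` normalised by `Gam` is `Gam`
(`cyc_mem_all`, `sw_mem`, `tww_mem`, `stab_le`, `Gam_le_of_stab`). -/
theorem simple_core (H : Hyp D S s0 t0) (N' : Subgroup (Equiv.Perm (Cube S)))
    (hle : N' ≤ Gam D S) (hnorm : ∀ g ∈ Gam D S, ∀ n ∈ N', g * n * g⁻¹ ∈ N')
    (hne : ∃ n ∈ N', n ≠ 1) : Gam D S ≤ N' := by
  have hcyc : ∀ f1 f2 f3 : Chart S, Good3 D f1 f2 f3 → sw f1 f2 * sw f2 f3 ∈ N' :=
    fun f1 f2 f3 h => cyc_mem_all N' hle hnorm hne h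
  have hsw : ∀ e1 e2 : Chart S, Good2 D e1 e2 → sw e1 e2 ∈ N' :=
    fun e1 e2 h => sw_mem N' hcyc h
  refine Gam_le_of_stab H N' ?_
  intro x hx g hg
  refine stab_le (KK_isPart hx) N' ?_ ?_ hg
  · intro a ha b hb hab
    refine hsw _ _ ⟨x, hx, ?_, ?_, ?_⟩
    · rw [Tile.mk_out]; exact ha
    · rw [Tile.mk_out]; exact hb
    · rw [Tile.mk_out, Tile.mk_out]; exact hab
  · intro a ha c
    refine tww_mem H N' hsw ⟨x, hx, ?_⟩ c
    rw [Tile.mk_out]; exact ha

/-- **Simplicity of `Gam`.**  For `Nn` normal in `↥(Gam D S)` apply `simple_core` to `N' = Nn.map (Gam D S).subtype`.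
Nontrivial: `twGam` is injective and `D` is nontrivial (`c • s0 = t0 ≠ s0` for some `c`). -/
theorem Gam_simple (H : Hyp D S s0 t0) : IsSimpleGroup (Gam D S) := by
  have hnt : Nontrivial (Gam D S) := by
    obtain ⟨c, hc⟩ := H.trans t0
    refine ⟨⟨twGam D S c, twGam D S 1, ?_⟩⟩
    intro h
    have h1 : c = 1 := twGam_injective H h
    rw [h1, one_smul] at hc
    exact H.ne hc
  refine { toNontrivial := hnt, eq_bot_or_eq_top_of_normal := ?_ }
  intro Nn hN
  by_cases hbot : Nn = ⊥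
  · exact Or.inl hbot
  · right
    obtain ⟨m, hm, hm1⟩ := (Subgroup.ne_bot_iff_exists_ne_one).1 hbot |>.elim
      (fun m hm => (⟨m.1, m.2, fun h => hm (Subtype.ext h)⟩ : ∃ m : Gam D S, m ∈ Nn ∧ m ≠ 1))
    have hcore := simple_core H (Nn.map (Gam D S).subtype) (Subgroup.map_subtype_le Nn) ?_ ?_
    · rw [eq_top_iff]
      intro x _
      obtain ⟨y, hy, hyx⟩ := Subgroup.mem_map.1 (hcore x.2)
      have : y = x := Subtype.ext hyx
      rw [← this]; exact hy
    · rintro g hg n hn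
      obtain ⟨y, hy, rfl⟩ := Subgroup.mem_map.1 hn
      refine Subgroup.mem_map.2 ⟨⟨g, hg⟩ * y * ⟨g, hg⟩⁻¹, hN.conj_mem y hy ⟨g, hg⟩, rfl⟩
    · refine ⟨m.1, Subgroup.mem_map.2 ⟨m, hm, rfl⟩, ?_⟩
      intro h
      exact hm1 (Subtype.ext h)

end Claimed.Agent.R152.B
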